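import Vale.Agent.P237.Cal.Step127
import Vale.Agent.P237.Cal.Mid.Full

/-!
Petty's conjecture in dimensions `n ≥ 128` from the dimension below, and a better uniform constant.
-/

open Metric

namespace Vale.Agent.Results.P237.FromDimension127

open Vale.Agent.P237.Statement

/-- `|Π K| ≥ a κ_{n-1}^n κ_n^{2-n} |K|^{n-1}` for every convex body of `ℝ^n`. -/
def Inequality (a : ℝ) (n : ℕ) : Prop :=
  ∀ K : Set (Space n), IsConvexBody K →
    a * pettyConst n * vol K ^ (n - 1) ≤ vol (projectionBody K)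

/-- The conjecture in `ℝ^n`: the inequality, with equality exactly for ellipsoids. -/
def Conjecture (n : ℕ) : Prop :=
  ∀ K : Set (Space n), IsConvexBody K →
    pettyConst n * vol K ^ (n - 1) ≤ vol (projectionBody K) ∧
      (vol (projectionBody K) = pettyConst n * vol K ^ (n - 1) ↔
        ∃ (a : Space n) (T : Space n →ₗ[ℝ] Space n),
          Function.Injective T ∧ K = (fun x => a + T x) '' closedBall 0 1)

/-- From `n = 127` on the best constant never decreases; the conjecture in `ℝ^(n+1)`, equality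
case included, follows from its inequality in `ℝ^n`; hence the conjecture for all `n ≥ 3` is
equivalent to the cases `5 ≤ n ≤ 127`; and in every dimension it holds up to the factor
`exp (-(5/8) (1/3 - 1/126)) > 815/1000`. -/
theorem result :
    (∀ (a : ℝ), 0 < a → a ≤ 1 → ∀ n N : ℕ, 127 ≤ n → n ≤ N →
      Inequality a n → Inequality a N) ∧
    (∀ n : ℕ, 127 ≤ n → Inequality 1 n → ∀ N : ℕ, n < N → Conjecture N) ∧
    ((∀ n : ℕ, 3 ≤ n → Conjecture n) ↔ ∀ n : ℕ, 5 ≤ n → n ≤ 127 → Conjecture n) ∧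
    (∀ n : ℕ, 3 ≤ n → ∀ K : Set (Space n), IsConvexBody K →
      IsConvexBody (projectionBody K) ∧ IsSupportFun (projectionBody K) (projFun K) ∧
        Real.exp (-(5 / 8) * (1 / 3 - 1 / 126)) * pettyConst n * vol K ^ (n - 1) ≤
          vol (projectionBody K) ∧
        815 / 1000 * pettyConst n * vol K ^ (n - 1) ≤ vol (projectionBody K)) ∧
    (∀ n : ℕ, 4 ≤ n → ∀ K : Set (Space n), IsConvexBody K →
      Real.exp (-(5 / 8) * (1 / 3 - 1 / ((n : ℝ) - 1))) * pettyConst n * vol K ^ (n - 1) ≤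
        vol (projectionBody K)) := by
  have hC : ∀ m, 126 ≤ m → Vale.Agent.P237.Cal.ProfileCal m :=
    fun _ h => Vale.Agent.P237.Cal.MidN.profileCal_128 h
  have hmono : ∀ n N : ℕ, 127 ≤ n → n ≤ N → Inequality 1 n → Inequality 1 N :=
    fun n N hn hN h => Vale.Agent.P237.Cal.Step127.ineq_mono hC hn hN one_pos le_rfl h
  have hstep : ∀ n : ℕ, 127 ≤ n → Inequality 1 n → ∀ N : ℕ, n < N → Conjecture N := by
    intro n hn h N hN
    obtain ⟨M, rfl⟩ : ∃ M, N = M + 1 := ⟨N - 1, by omega⟩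
    intro K hK
    exact Vale.Agent.P237.Cal.Step127.equality_step hC (by omega)
      (hmono n M hn (by omega) h) K hK
  refine ⟨fun a ha0 ha1 n N hn hN h =>
      Vale.Agent.P237.Cal.Step127.ineq_mono hC hn hN ha0 ha1 h, hstep,
    ⟨fun h n h1 _ => h n (by omega), fun h n hn => ?_⟩, fun n hn K hK => ?_, fun n hn K hK => ?_⟩
  · rcases le_or_gt n 4 with h4 | h4
    · exact fun K hK => Vale.Agent.P237.Cal.petty_upto (fun m h1 h2 => absurd h2 (by omega)) hn K hK
    rcases le_or_gt n 127 with h127 | h127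
    · exact h n (by omega) h127
    · exact hstep 127 le_rfl (fun K hK => by
        rw [one_mul]; exact (h 127 (by omega) le_rfl K hK).1) n h127
  · obtain ⟨h1, h2, -⟩ := Vale.Agent.P237.Uniform.uniform_petty n hn K hK
    have h3 := Vale.Agent.P237.Cal.Step127.ineq_all hC hn K hK
    refine ⟨h1, h2, h3, le_trans ?_ h3⟩
    have hc : 0 ≤ pettyConst n := by
      obtain ⟨j, rfl⟩ : ∃ j, n = j + 3 := ⟨n - 3, by omega⟩
      exact Vale.Agent.P237.Uniform.petty_nonneg (j + 1)
    exact mul_le_mul_of_nonneg_right (mul_le_mul_of_nonneg_right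
      Vale.Agent.P237.Cal.Step127.cAll_bounds.1 hc) (pow_nonneg ENNReal.toReal_nonneg _)
  · obtain ⟨j, rfl⟩ : ∃ j, n = j + 4 := ⟨n - 4, by omega⟩
    have h := (Vale.Agent.P237.Cal.LargeStep.ineq_iff _ (j + 2)).2
      (Vale.Agent.P237.Cal.LargeStep.pettyWith_four j) K hK
    refine le_trans (le_of_eq ?_) h
    rw [Vale.Agent.P237.Cal.LargeStep.facFour, show ((j + 4 : ℕ) : ℝ) - 1 = (j : ℝ) + 3 by push_cast; ring]

end Vale.Agent.Results.P237.FromDimension127
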