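import Vale.Agent.P237.Higher.Four.Cert
import Vale.Agent.P237.Higher.Four.Profile
import Vale.Agent.P237.Full.Final
import Vale.Agent.P237.ProdStatement

/-!
Petty's projection inequality for all convex bodies in dimensions three and four, with its equality
case.
-/

namespace Vale.Agent.Results.P237.PettyThreeFour

open Vale.Agent.P237.Statement

/-- `|Π K| ≥ κ_{n-1}^n κ_n^{2-n} |K|^{n-1}` for `n = 3, 4`, equality exactly for ellipsoids. -/
theorem result :
    pettyConst 3 = 3 * Real.pi ^ 2 / 4 ∧ pettyConst 4 = 1024 / 81 ∧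
    ∀ n : ℕ, n = 3 ∨ n = 4 → ∀ K : Set (Space n), IsConvexBody K →
      pettyConst n * vol K ^ (n - 1) ≤ vol (projectionBody K) ∧
      (vol (projectionBody K) = pettyConst n * vol K ^ (n - 1) ↔
        ∃ (a : Space n) (T : Space n →ₗ[ℝ] Space n), Function.Injective T ∧
          K = (fun x => a + T x) '' Metric.closedBall 0 1) := by
  refine ⟨Vale.Agent.P237.Full.pettyConst_three, Vale.Agent.P237.Four.pettyConst_four, ?_⟩
  rintro n (rfl | rfl) K hK
  · rw [Vale.Agent.P237.Full.pettyConst_three]
    exact Vale.Agent.P237.Full.petty_space hK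
  · exact Vale.Agent.P237.Higher.Four.petty_four Vale.Agent.P237.Higher.Four.certFour hK

end Vale.Agent.Results.P237.PettyThreeFour
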