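import Vale.Agent.P237.Eventually

/-!
Petty's inequality, strictly and with the sharp constant, for products of low-dimensional bodies.
-/

namespace Vale.Agent.Results.P237.ProductBodies

open Vale.Agent.P237.Statement

/-- `|Π K| > κ_{n-1}^n κ_n^{2-n} |K|^(n-1)` for products of bodies of dimension at most two
(`n ≥ 3`), of dimension at most three (`n ≥ 5`), and of any bounded dimension (`n` large). -/
theorem result :
    (∀ (n : ℕ) (K : Set (Space n)), (3 ≤ n ∧ IsProduct 2 n K) ∨ (5 ≤ n ∧ IsProduct 3 n K) →
      IsConvexBody K ∧ pettyConst n * vol K ^ (n - 1) < vol (projectionBody K)) ∧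
    (∀ D : ℕ, ∃ N, ∀ (n : ℕ) (K : Set (Space n)), N ≤ n → IsProduct D n K →
      pettyConst n * vol K ^ (n - 1) < vol (projectionBody K)) :=
  ⟨fun _ _ h => Vale.Agent.P237.petty_product h, Vale.Agent.P237.petty_product_eventually⟩

end Vale.Agent.Results.P237.ProductBodies
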